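import Vale.Agent.P057PL.Pull
import Vale.Agent.P057SY.Plan

/-!
Alternating sums along local maps; squarefree coefficients of polynomials on symbol cubes.
-/

set_option linter.all false

open Matrix Finset MvPolynomial
open Vale.Agent.P267.H775 Vale.Agent.P057G Vale.Agent.P057PC Vale.Agent.P057TP Vale.Agent.P057SY
open Vale.Agent.P057PL Vale.Agent.P057TE

namespace Vale.Agent.P057PU

noncomputable section

section ms

variable {V ι κ : Type} [DecidableEq V] [Fintype ι] [DecidableEq ι] [Fintype κ] [DecidableEq κ]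
  {S : MS V ι} {S' : MS V κ} {M : (κ → ℝ) → ι → ℝ}

theorem alt_ins {v : V} {A : Finset V} (hv : v ∉ A) (θ : (ι → ℝ) → ℝ) (z : ι → ℝ) :
    S.alt (insert v A) θ z = S.alt A (fun z => θ z - θ (mix (S.st v) 0 z)) z := by
  rw [MS.alt_insert hv]
  simp only [MS.alt, MS.kz, mul_sub, sum_sub_distrib, mix_mix_comm (S.st v), mix_zero_zero]

/-- the alternating sum of a multi-affine function along a local family of points -/
theorem alt_loc (A : Finset V) {θ : (ι → ℝ) → ℝ} (hθ : ∀ v ∈ A, Aff (S.st v) θ)
    {y : Finset V → ι → ℝ} (hy : ∀ v U i, v ∉ S.fc i → y (insert v U) i = y U i) :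
    ∑ U ∈ A.powerset, (-1) ^ U.card * θ (y U) =
      S.alt A θ fun i => ∑ U ∈ (S.fc i ∩ A).powerset, (-1) ^ U.card * y U i := by
  induction A using Finset.induction_on generalizing θ y with
  | empty => simp [MS.alt_empty]
  | insert v A hv ih =>
    have h1 := ih (θ := fun z => θ z - θ (mix (S.st v) 0 z))
      (fun w hw => (hθ w (mem_insert_of_mem hw)).sub ((hθ w (mem_insert_of_mem hw)).kill _))
      (y := fun U => mix (S.st v) (y U - y (insert v U)) (y U)) fun w U i k => by
        simp only [mix, Pi.sub_apply, hy w U i k, insert_comm v w, hy w _ i k]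
    have h2 : ∀ U, θ (mix (S.st v) (y U - y (insert v U)) (y U)) -
        θ (mix (S.st v) 0 (mix (S.st v) (y U - y (insert v U)) (y U))) =
        θ (y U) - θ (y (insert v U)) := fun U => by
      have h3 := (hθ v (mem_insert_self _ _) (y U)).map_add (y U - y (insert v U)) (y (insert v U))
      have h4 : mix (S.st v) (y (insert v U)) (y U) = y (insert v U) := funext fun i => by
        by_cases k : i ∈ S.st v
        · exact mix_pos _ _ k
        · rw [mix_neg _ _ k, hy v U i (mt S.mem_st.2 k)]
      rw [sub_add_cancel, mix_self, h4] at h3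
      rw [mix_mix]
      linarith
    have h5 : ∀ (B : Finset V) (g : Finset V → ℝ), v ∉ B →
        ∑ U ∈ (insert v B).powerset, (-1) ^ U.card * g U =
        ∑ U ∈ B.powerset, (-1) ^ U.card * (g U - g (insert v U)) := fun B g hB => by
      rw [sum_powerset_insert hB, ← sum_add_distrib]
      refine sum_congr rfl fun U hU => ?_
      rw [card_insert_of_notMem fun k => hB (mem_powerset.1 hU k)]
      ring
    simp only [h2] at h1
    rw [h5 A (fun U => θ (y U)) hv, h1, alt_ins hv]
    congr 1
    funext i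
    by_cases k : v ∈ S.fc i
    · rw [inter_insert_of_mem k, h5 _ (fun U => y U i) fun e => hv (mem_inter.1 e).2]
      simp only [mix_pos _ _ (S.mem_st.2 k), Pi.sub_apply]
    · rw [inter_insert_of_notMem k]
      simp only [mix_neg _ _ (mt S.mem_st.1 k)]

/-- the top part of a composite -/
theorem alt_la (h : LA S' S M) (A : Finset V) {θ : (ι → ℝ) → ℝ} (hθ : ∀ v ∈ A, Aff (S.st v) θ)
    (x : κ → ℝ) : S'.alt A (fun x => θ (M x)) x =
      S.alt A θ fun i => S'.alt (S.fc i ∩ A) (fun x => M x i) x :=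
  alt_loc A hθ (y := fun U => M (S'.kz U x)) fun v U i k => by
    refine h.loc i _ _ fun j hj => ?_
    have : j ∉ S'.st v := fun e => k (hj (S'.mem_st.1 e))
    simp only [MS.kz, MS.sts_insert, mix, mem_union, this, false_or]

theorem alt_congr {p : ι → Prop} {θ : (ι → ℝ) → ℝ}
    (hθ : ∀ x x', (∀ i, p i → x i = x' i) → θ x = θ x') (A : Finset V) {z z' : ι → ℝ}
    (h : ∀ i, p i → z i = z' i) : S.alt A θ z = S.alt A θ z' :=
  sum_congr rfl fun U _ => by
    rw [hθ (S.kz U z) (S.kz U z') fun i hi => by simp only [MS.kz, mix, h i hi]]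

theorem alt_kill {A : Finset V} {θ : (ι → ℝ) → ℝ} (U : Finset V)
    (h : ∀ v ∈ U, v ∉ A ∧ ∀ z, S.alt (insert v A) θ z = 0) (z : ι → ℝ) :
    S.alt A θ z = S.alt A θ (S.kz U z) := by
  induction U using Finset.induction_on generalizing z with
  | empty => rw [MS.kz_empty]
  | insert v U hv ih =>
    obtain ⟨h1, h2⟩ := h v (mem_insert_self _ _)
    rw [MS.kz_insert, ← ih fun w hw => h w (mem_insert_of_mem hw), ← sub_eq_zero,
      ← MS.alt_insert h1, h2]

theorem alt_of_zero {A : Finset V} {θ : (ι → ℝ) → ℝ}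
    (h : ∀ v ∈ A, ∀ y, θ (mix (S.st v) 0 y) = 0) (z : ι → ℝ) : S.alt A θ z = θ z := by
  rw [MS.alt, sum_eq_single_of_mem ∅ (empty_mem_powerset _) fun U hU h0 => ?_]
  · simp [MS.kz_empty]
  · obtain ⟨v, hv⟩ := nonempty_iff_ne_empty.2 h0
    rw [← insert_erase hv, MS.kz_insert, MS.kz, mix_mix_comm, mix_zero_zero,
      h v (mem_powerset.1 hU hv), mul_zero]

end ms

variable {V σ : Type} {T : Tow} {m : ℕ}

/-- the generators read as variables -/
def tr (j : V → σ) : Alg (Multiset V) →ₐ[ℝ] MvPolynomial σ ℝ := P057ST.hm fun v => X (j v)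

theorem tr_single [DecidableEq σ] (j : V → σ) (μ : Multiset V) (r : ℝ) :
    tr j (AddMonoidAlgebra.single μ r) = monomial (Multiset.toFinsupp (μ.map j)) r := by
  rw [tr, P057ST.hm_single]
  induction μ using Multiset.induction_on with
  | empty => simp [smul_eq_C_mul]
  | cons v μ ih =>
    rw [Multiset.map_cons, Multiset.prod_cons, ← mul_smul_comm, ih, Multiset.map_cons,
      ← Multiset.singleton_add, map_add, Multiset.toFinsupp_singleton, X, monomial_mul, one_mul]

theorem coeff_tr [DecidableEq σ] {j : V → σ} (hj : Function.Injective j) (u : Alg (Multiset V))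
    (μ : Multiset V) : coeff (Multiset.toFinsupp (μ.map j)) (tr j u) = u.coeff μ := by
  classical
  induction u using AddMonoidAlgebra.induction_linear with
  | zero => simp
  | add u v hu hv => simp only [map_add, coeff_add, AddMonoidAlgebra.coeff_add, Finsupp.add_apply,
      hu, hv]
  | single ν r =>
    rw [tr_single, coeff_monomial, AddMonoidAlgebra.coeff_single, Finsupp.single_apply]
    exact if_congr (Multiset.toFinsupp.injective.eq_iff.trans (Multiset.map_injective hj).eq_iff)
      rfl rfl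

variable [Fintype V] [DecidableEq V]

/-- a squarefree coefficient of a polynomial on the symbol cube -/
def cq (R : MvPolynomial T.ι ℝ) (A : Finset V) (x : SA T V m → ℝ) : ℝ :=
  (aeval ((fr SL.cd SL.fc 0).pt x) R).coeff A.val

theorem pol_eq {T' : Tow} (φ : T.ι → MvPolynomial T'.ι ℤ) (x : SA T' V m → ℝ) (k : SA T V m) :
    pol φ x k = cq (map (Int.castRingHom ℝ) (φ k.cd)) k.fc x := by
  rw [pol, cq, aeval_def, eval₂_map, Subsingleton.elim (RingHom.comp _ _) (Int.castRingHom _)]

theorem p_eq (x : SA T V m → ℝ) (k : SA T V m) : (S0 T V m).p x k = cq (T.q k.cd) k.fc x := by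
  simp [S0, sym, sys_p, cv, Cf.val, cq, fr, Tow.tw]

theorem cq_tr [DecidableEq σ] {j : V → σ} (hj : Function.Injective j) (R : MvPolynomial T.ι ℝ)
    (A : Finset V) (x : SA T V m → ℝ) :
    coeff (Multiset.toFinsupp (A.val.map j))
      (eval (fun b => tr j ((fr SL.cd SL.fc 0).pt x b)) (map C R)) = cq R A x := by
  rw [cq, ← coeff_tr hj, eval_map, comp_aeval_apply, aeval_def]
  rfl

theorem tr_pt [DecidableEq σ] (j : V → σ) (x : SA T V m → ℝ) (b : T.ι) :
    tr j ((fr SL.cd SL.fc 0).pt x b) = ∑ k, if k.cd = b then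
      monomial (Multiset.toFinsupp (k.fc.val.map j)) (x k) else 0 := by
  rw [Cf.pt, map_sum]
  refine sum_congr rfl fun k _ => ?_
  by_cases h : k.cd = b
  · rw [if_pos h, if_pos (show (fr SL.cd SL.fc 0).cd k = b from h), tr_single]; rfl
  · rw [if_neg h, if_neg (show ¬ (fr SL.cd SL.fc 0).cd k = b from h), map_zero]

/-- a tower with one more coordinate that carries the polynomial `R` -/
abbrev tq (T : Tow) (R : MvPolynomial T.ι ℝ) : Tow where
  ι := Option T.ι
  lv _ := 0
  q _ := rename some R
  G := 0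
  el := 0

theorem val_tq (R : MvPolynomial T.ι ℝ) (x : SA T V m → ℝ) :
    (fr (some ∘ SL.cd) SL.fc 0).val (tq T R).tw x none = aeval ((fr SL.cd SL.fc 0).pt x) R := by
  simp only [Cf.val, Tow.tw, aeval_rename, fr, map_zero, add_zero]
  congr 2
  funext b
  simp [Cf.pt]

theorem lin_cq (R : MvPolynomial T.ι ℝ) {A : Finset V} {v : V} (hv : v ∈ A) :
    Lin ((S0 T V m).st v) (cq R A) := by
  have := lin_cv (T := tq T R) (cd := some ∘ SL.cd (D := fun _ : Finset V => True) (m := m))
    (fc := SL.fc) (c := 0) 0 none hv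
  rw [show cq R A = _ from funext fun x => congrArg (·.coeff A.val) (val_tq (m := m) R x).symm]
  exact this

theorem cq_on (R : MvPolynomial T.ι ℝ) (A : Finset V) {x x' : SA T V m → ℝ}
    (h : ∀ k, k.fc ⊆ A → x k = x' k) : cq R A x = cq R A x' := by
  rw [cq, cq, ← val_tq, ← val_tq]
  exact Cf.val_ideal _ _ (I := fun μ => ¬ μ ≤ A.val)
    (fun μ μ' h1 h2 => h1 ((Multiset.le_add_right μ μ').trans h2))
    (fun l hl => h l (Finset.val_le_iff.1 (not_not.1 hl))) _ (not_not.2 le_rfl)

omit [Fintype V] in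
theorem mon_eq (A : Finset V) (d : ℕ) : (mon A d : Lam ℝ V) = monomial (ex A d) 1 := by
  rw [mon, ex, X_pow_eq_monomial, ← one_mul (1 : ℝ), ← monomial_mul, monomial_sum_one, one_mul]
  rfl

omit [Fintype V] in
theorem count_val (A : Finset V) (v : V) : A.val.count v = if v ∈ A then 1 else 0 :=
  Multiset.count_eq_of_nodup A.nodup

end

end Vale.Agent.P057PU
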