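import Vale.Agent.P057PU.Br
import Vale.Agent.P057RL.Clo
import Vale.Agent.P057EV.Dem

/-!
Polarisations of morphisms of towers are morphisms of symbol cubes.
-/

set_option linter.all false

open Matrix Finset MvPolynomial
open Vale.Agent.P267.H775 Vale.Agent.P057G Vale.Agent.P057PC Vale.Agent.P057TP Vale.Agent.P057SY
open Vale.Agent.P057PL Vale.Agent.P057TE
open Vale.Agent.P057MA (On IntV Fm fce ln2 Nle scl nar ln2_scl scl_scl scl_one ln2_split mem_fce
  ln2_nar ln2_nonneg on_univ)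

namespace Vale.Agent.P057PU

noncomputable section

section ms

variable {V ι κ : Type} [Fintype V] [DecidableEq V] [Fintype ι] [DecidableEq ι] [Fintype κ]
  [DecidableEq κ] {S : MS V ι} {S' : MS V κ} {P : (κ → ℝ) → ι → ℝ}

theorem ln2_sts (h : S.Ok) (L : Finset V) (w : ι → ℝ) :
    ln2 S (S.sts L) w ≤ ∑ b ∈ L, ln2 S (S.st b) w := by
  induction L using Finset.induction_on with
  | empty => simp [MS.sts_empty, ln2, msk, qq, dotProduct]
  | insert v L hv ih =>
    rw [sum_insert hv, ln2_split h (h.sat_st v), MS.sts_insert, union_inter_cancel_left]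
    refine add_le_add le_rfl (le_trans (P057T1.ln2_mono h ?_ ?_ w) ih)
    · rw [← MS.sts_insert]; exact (h.sat_sts _).sdiff h.pd.1 (h.sat_st v)
    · rw [union_sdiff_left]; exact sdiff_subset

/-- a bound on a ball gives a linear bound -/
theorem lin_est (h : S.Ok) (hc : S.Cen) (h' : S'.Ok) (hc' : S'.Cen)
    (hP : ∀ i, Fm S' (fce S' (S.fc i)) (S.fc i) fun z => P z i) {ε K δ : ℝ}
    (hK : ∀ z, ln2 S' univ z ≤ ε → ln2 S univ (P z) ≤ K) (h0 : 0 < δ) (h1 : δ ≤ ε) {z : κ → ℝ}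
    (hz : ln2 S' univ z ≤ δ) : ln2 S univ (P z) ≤ Fintype.card V * (K / ε * δ) := by
  have e0 : 0 < ε := h0.trans_le h1
  have h2 : S.sts univ = univ := eq_univ_of_forall fun i =>
    MS.mem_sts.2 ((hc.ne i).imp fun v hv => ⟨mem_univ _, hv⟩)
  rw [← h2, ← nsmul_eq_mul]
  refine (ln2_sts h _ _).trans (sum_le_card_nsmul _ _ _ fun b _ => ?_)
  set t := √(ε / δ) with ht
  have t1 : 1 ≤ t := Real.one_le_sqrt.2 ((one_le_div h0).2 h1)
  have t2 : t ^ 2 = ε / δ := Real.sq_sqrt (by positivity)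
  have h3 := ln2_scl (q := univ) h' hc' {b} (t := t) (s := t) (fun i _ => by
    have := pow_le_pow_right₀ t1 (show (S'.fc i ∩ {b}).card ≤ 1 from
      (card_le_card inter_subset_right).trans (by simp))
    rw [pow_one] at this
    exact pow_le_pow_left₀ (by positivity) this 2) z
  have h4 := hK _ (h3.trans (by
    rw [t2, div_mul_eq_mul_div, div_le_iff₀ h0]; exact mul_le_mul_of_nonneg_left hz e0.le))
  have h5 := ln2_scl (q := S.st b) h hc {b} (t := t⁻¹) (s := t⁻¹) (fun i hi => by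
    rw [inter_singleton_of_mem (S.mem_st.1 hi), card_singleton, pow_one]) (scl S {b} t (P z))
  rw [scl_scl, inv_mul_cancel₀ (by linarith), scl_one, inv_pow, t2, inv_div] at h5
  rw [show P (scl S' {b} t z) = scl S {b} t (P z) from funext fun i => (hP i).scl _ _ _] at h4
  refine h5.trans ((mul_le_mul_of_nonneg_left
    ((P057T1.ln2_mono h (h.sat_st b) (subset_univ _) _).trans h4) (by positivity)).trans_eq ?_)
  ring

end ms

variable {V : Type} [Fintype V] [DecidableEq V] {T T' : Tow} {m s : ℕ} {N : ℝ}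

omit [Fintype V] [DecidableEq V] in
theorem bs_none (l : Lb T (id : V → V) Empty m) : l.bs = none := by
  rcases l.bs with _ | a
  exacts [rfl, a.elim]

/-- labels without special vertex are the labels of the symbol cube -/
def eL : Lb T (id : V → V) Empty m ≃ SA T V m where
  toFun l := ⟨(l.cd, l.fc), l.2.1, l.card_eq (bs_none l), trivial⟩
  invFun k := ⟨(k.cd, k.fc, none), k.2.1, Set.injOn_id _, k.2.2.1⟩
  left_inv l := Lb.ext' rfl rfl (bs_none l).symm
  right_inv k := rfl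

theorem ex_card (A : Finset V) : ex A A.card = Multiset.toFinsupp (A.val.map some) := by
  ext o
  rw [Multiset.toFinsupp_apply]
  cases o with
  | none => rw [ex_none, Nat.sub_self, Multiset.count_eq_zero.2 (by simp)]
  | some w => rw [ex_some, Multiset.count_map_eq_count' _ _ (Option.some_injective _), count_val]

theorem altL_cq {R : MvPolynomial T.ι ℝ} {A : Finset V} (hR : R.IsWeightedHomogeneous T.lv A.card)
    (z : SA T V m → ℝ) :
    altL A (eval (lift (z ∘ eL) none) (map MvPolynomial.C R)) = cq R A z := by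
  classical
  have e : lift (z ∘ eL) none = fun b => tr some ((fr SL.cd SL.fc 0).pt z b) := funext fun b => by
    rw [tr_pt, ← eL.sum_comp, lift]
    refine sum_congr rfl fun l _ => ?_
    by_cases g : l.cd = b
    · rw [if_pos ⟨g, Or.inl (bs_none l)⟩, if_pos (show (eL l).cd = b from g), mon_eq,
        C_mul_monomial, mul_one, ← g, ← l.card_eq (bs_none l), ex_card]
      rfl
    · rw [if_neg fun c => g c.1, if_neg (show ¬ (eL l).cd = b from g)]
  rw [altL_ex (i := 0) (JH.eval (JH.of_hom hR) (lift_hom _ _)) (by simp), add_zero, ex_card, e,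
    cq_tr (Option.some_injective _)]

theorem p_eL (hT : T.Ok s N) (z : SA T V m → ℝ) :
    (S0 T V m).p z ∘ eL = (T.cen V Empty).pr id m (z ∘ eL) := funext fun l => by
  rw [Function.comp, p_eq, Sys.pr, Fam.alt_eq, bs_none l]
  exact (altL_cq (l.card_eq (bs_none l) ▸ hT.hom l.cd) z).symm

theorem ln2_S0 (z : SA T V m → ℝ) : ln2 (S0 T V m) univ z =
    25 * qq ((fr SL.cd SL.fc 0).Gam T.tw) (z - (S0 T V m).p z) := by
  rw [ln2, show msk univ (z - (S0 T V m).p z) = _ from funext fun i => msk_pos _ (mem_univ i)]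
  exact qq_smul_mat _ _ _

theorem qq_eL (u : SA T V m → ℝ) :
    qq (Gam T id Empty m) (u ∘ eL) = qq ((fr SL.cd SL.fc 0).Gam T.tw) u := by
  rw [← qq_equiv eL]
  congr 1
  ext l l'
  simp only [Gam, of_apply, submatrix_apply, Gam_fr, bs_none, and_true]
  congr

/-- the constant family of the levels below `m` -/
def cst (V : Type) (m : ℕ) (φ : T.ι → MvPolynomial T'.ι ℤ) : Fam ℤ T.ι T'.ι V Empty :=
  ⟨fun _ a => map MvPolynomial.C (if T.lv a < m then φ a else 0)⟩

variable {φ : T.ι → MvPolynomial T'.ι ℤ}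

omit [Fintype V] [DecidableEq V] in
theorem ok_cst (h : Mor m T' T φ) : (cst V m φ).Ok T.lv T'.lv :=
  ⟨fun _ a => JH.of_hom (by
    split_ifs with e
    exacts [h.hom a e, isWeightedHomogeneous_zero _ _ _]), fun _ _ => rfl⟩

omit [Fintype V] [DecidableEq V] in
theorem cst_fn (o : Option Empty) (a : T.ι) : ((cst V m φ).cast ℝ).fn o a =
    map MvPolynomial.C (map (Int.castRingHom ℝ) (if T.lv a < m then φ a else 0)) := by
  simp only [Fam.cast, cst, lamZ, MvPolynomial.map_map]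
  congr 2
  exact Subsingleton.elim _ _

theorem pol_eL (h : Mor m T' T φ) (z : SA T' V m → ℝ) :
    pol φ z ∘ eL = ((cst V m φ).cast ℝ).sb (z ∘ eL) := funext fun l => by
  rw [Function.comp, pol_eq, Fam.sb, Fam.alt_eq, cst_fn, bs_none l,
    if_pos (show T.lv l.cd < m from l.2.1)]
  refine (altL_cq (fun β e => ?_) z).symm
  exact (h.hom _ l.2.1 fun e2 => e ((coeff_map _ _ _).trans ((congrArg _ e2).trans
    (map_zero _)))).trans (l.card_eq (bs_none l)).symm

theorem eval_ap (y : T'.ι → ℝ) (p : MvPolynomial T'.ι ℤ) :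
    eval y (map (Int.castRingHom ℝ) p) = aeval y p := by rw [eval_map, aeval_def]; rfl

theorem ball_pol (hT : T.Ok s N) (hT' : T'.Ok s N) (hV : Fintype.card V ≤ s + 1)
    (h : Mor m T' T φ) (z : SA T' V m → ℝ) (hz : ln2 (S0 T' V m) univ z ≤ (2 ^ (s + 2))⁻¹) :
    ln2 (S0 T V m) univ (pol φ z) ≤ 25 * 8 ^ (s + 1) := by
  classical
  obtain ⟨p, h1, h2⟩ := P057NA.vpz hT'.ok0 (P057NA.ok_cen hT'.ok0 V Empty) (z ∘ eL) none
  have hB : ∀ B, T.Ball m (ap φ (p B)) := fun B => h.ball _ fun e he => by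
    have a1 := P057EV.qq_pt hT'.pd (z ∘ eL - (T'.cen V Empty).pr id m (z ∘ eL)) none B
    have a2 := P057EV.qq_lev hT'.pd hT'.blk (· = e)
      (pt (z ∘ eL - (T'.cen V Empty).pr id m (z ∘ eL)) none B)
    rw [← p_eL hT', ← Pi.sub_comp, qq_eL] at a1
    rw [ln2_S0] at hz
    have a3 : (2 : ℝ) ^ (B.card + 1) ≤ 2 ^ (s + 2) :=
      pow_le_pow_right₀ one_le_two (by have := card_le_univ B; omega)
    have a4 := qq_nonneg (((fr_sl (T := T') (D := fun _ : Finset V => True) (m := m)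
      fun _ _ _ _ => trivial).ok 0).posDef (P057TE.ok_tw hT')).posSemidef (z - (S0 T' V m).p z)
    have a5 := (le_inv_mul_iff₀' (show (0 : ℝ) < 2 ^ (s + 2) by positivity)).1
      (hz.trans_eq (mul_one _).symm)
    rw [← p_eL hT', ← Pi.sub_comp] at a2
    refine le_trans (le_of_eq (congrArg (qq T'.G) (funext fun a => ?_))) (a2.trans (a1.trans
      ((mul_le_mul_of_nonneg_right a3 a4).trans (show _ ≤ (1 : ℝ) by nlinarith))))
    split_ifs with g
    · rw [Pi.sub_comp, p_eL hT', ← h1 B (Set.injOn_id _) a (g ▸ he), Fam.at', Tow.cen,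
        P057NA.map_evA]
      rfl
    · rfl
  have key : ∀ l : Lb T (id : V → V) Empty m, (pol φ z - (S0 T V m).p (pol φ z)) (eL l) =
      dlt (fun B => T.ps (ap φ (p B)) l.cd) l.fc := fun l => by
    have c1 := l.card_eq (bs_none l)
    have c2 : T.lv l.cd < m := l.2.1
    have c3 : Set.InjOn id (l.fc : Set V) := Set.injOn_id _
    have a1 := congrFun (pol_eL h z) l
    have a2 := congrFun (p_eL hT (pol φ z)) l
    rw [pol_eL h, Sys.pr, ← (P057NA.ok_cen hT.ok0 V Empty).fam.alt_cmr (ok_cst h).cast _ c3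
      c2 l.card_eq, Fam.alt_eq, bs_none l, h2 _ _ _ (((P057NA.ok_cen hT.ok0 V Empty).fam.cmr
        (ok_cst h).cast).hom none l.cd) fun _ => c1] at a2
    rw [Fam.sb, Fam.alt_eq, bs_none l, h2 _ _ _ ((ok_cst h).cast.hom none l.cd) fun _ => c1] at a1
    refine (congrArg₂ (· - ·) a1 a2).trans ((dlt_sub _ _ _).symm.trans (dlt_congr fun B _ => ?_))
    simp only [Fam.cmr, map_bind₁, eval_bind, cst_fn, Tow.cen, P057NA.map_evA, eval_ap,
      if_pos c2]
    refine congrArg (_ - ·) (eval₂Hom_congr' rfl (fun j hj _ => ?_) rfl)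
    rw [if_pos ((hT.low _ j hj).trans c2)]
    rfl
  rw [ln2_S0, qq_face T.G SL.cd SL.fc (Gam_fr T _ _ _)]
  refine mul_le_mul_of_nonneg_left ((sum_le_card_nsmul _ _ (4 ^ (s + 1)) fun A _ => ?_).trans ?_)
    (by norm_num)
  · by_cases g : A.card < m
    · have a1 : (fun a => ∑ k : SA T V m, if k.cd = a ∧ k.fc = A then
          (pol φ z - (S0 T V m).p (pol φ z)) k else 0) = ∑ B ∈ A.powerset,
          (-1 : ℝ) ^ (A.card - B.card) • fun a =>
            if T.lv a = A.card then T.ps (ap φ (p B)) a else 0 := funext fun a => by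
        simp only [Finset.sum_apply, Pi.smul_apply, smul_eq_mul]
        by_cases c : T.lv a = A.card
        · let l : Lb T (id : V → V) Empty m := ⟨(a, A, none), c ▸ g, Set.injOn_id _, c.symm⟩
          rw [sum_eq_single_of_mem (eL l) (mem_univ _) fun k _ hk => if_neg fun e =>
            hk (Subtype.ext (Prod.ext e.1 e.2)), if_pos ⟨rfl, rfl⟩, key]
          simp only [if_pos c]
          rfl
        · simp only [if_neg c, mul_zero, sum_const_zero]
          exact sum_eq_zero fun k _ => if_neg fun e => c (by rw [← e.1, ← e.2]; exact k.2.2.1.symm)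
      have a2 : (2 : ℝ) ^ A.card ≤ 2 ^ (s + 1) :=
        pow_le_pow_right₀ one_le_two ((card_le_univ A).trans hV)
      rw [a1]
      refine (P057PC.qq_sum_le hT.pd.posSemidef _ _).trans ((mul_le_mul_of_nonneg_left
        (sum_le_card_nsmul _ _ 1 fun B _ => ?_) (Nat.cast_nonneg _)).trans ?_)
      · rw [qq_smul, ← pow_mul, mul_comm _ 2, pow_mul, neg_one_sq, one_pow, one_mul]
        exact hB B _ g
      · rw [card_powerset, nsmul_eq_mul, mul_one, show (4 : ℝ) = 2 * 2 by norm_num, mul_pow]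
        push_cast
        exact mul_le_mul a2 a2 (by positivity) (by positivity)
    · rw [show (fun a => ∑ k : SA T V m, if k.cd = a ∧ k.fc = A then
          (pol φ z - (S0 T V m).p (pol φ z)) k else 0) = 0 from funext fun a =>
        sum_eq_zero fun k _ => if_neg fun e => g (by rw [← e.2]; exact k.2.2.1.trans_lt k.2.1)]
      simp [qq]
  · rw [card_univ, Fintype.card_finset, nsmul_eq_mul, show (8 : ℝ) = 2 * 4 by norm_num, mul_pow]
    push_cast
    exact mul_le_mul_of_nonneg_right (pow_le_pow_right₀ one_le_two hV) (by positivity)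

theorem fm_pol (φ : T.ι → MvPolynomial T'.ι ℤ) (k : SA T V m) :
    Fm (S0 T' V m) (fce (S0 T' V m) k.fc) k.fc fun z => pol φ z k := by
  simp only [pol_eq]
  exact ⟨fun z z' h => cq_on _ _ fun j hj => h j (mem_fce.2 hj), fun v hv => lin_cq _ hv⟩

/-- the constant of the linear estimate -/
def c0 (s : ℕ) : ℕ := (s + 1) * (25 * 8 ^ (s + 1) * 2 ^ (s + 2))

theorem le_c0 (s : ℕ) : (2 : ℝ) ^ (s + 2) ≤ c0 s := by
  have : 1 * (1 * 1 * 2 ^ (s + 2)) ≤ c0 s := by
    unfold c0; gcongr <;> first | omega | exact Nat.one_le_pow _ _ (by norm_num)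
  exact_mod_cast (by simpa using this : 2 ^ (s + 2) ≤ c0 s)

theorem lin_pol (hT : T.Ok s N) (hT' : T'.Ok s N) (hV : Fintype.card V ≤ s + 1)
    (h : Mor m T' T φ) {δ : ℝ} (h0 : 0 < δ) (h1 : c0 s * δ ≤ 1) {z : SA T' V m → ℝ}
    (hz : ln2 (S0 T' V m) univ z ≤ δ) : ln2 (S0 T V m) univ (pol φ z) ≤ c0 s * δ := by
  have t : ∀ F F' : Finset V, True → F' ⊆ F → True := fun _ _ _ _ => trivial
  refine (lin_est (sym_ok hT t (by norm_num)) (sym_cen hT t _) (sym_ok hT' t (by norm_num))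
    (sym_cen hT' t _) (fm_pol φ) (ball_pol hT hT' hV h) h0 ?_ hz).trans ?_
  · rw [← one_div, le_div_iff₀ (by positivity)]
    nlinarith [le_c0 s]
  · rw [c0, div_inv_eq_mul, ← mul_assoc]
    push_cast
    gcongr
    exact_mod_cast hV

theorem mor_pol (hT : T.Ok s N) (hT' : T'.Ok s N) (hV : Fintype.card V ≤ s + 1)
    (h : Mor m T' T φ) {c : ℝ} (hc : c0 s ≤ c) :
    P057MA.Mor (nar (S0 T' V m) c) (S0 T V m) (pol φ) := by
  have c1 : 1 ≤ c := (one_le_pow₀ one_le_two).trans ((le_c0 s).trans hc)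
  refine ⟨fun k => ⟨(fm_pol φ k).on, (fm_pol φ k).lin⟩, fun k w => ⟨(cst V m φ).sub id m (w ∘ eL)
    (eL.symm k), ?_⟩, fun z hz => ?_⟩
  · have := congrFun ((pol_eL h (toR w)).trans (Fam.toR_sub (cst V m φ) (w ∘ eL)).symm) (eL.symm k)
    exact this
  · have c2 : c0 s * c⁻¹ ≤ 1 := by rw [← div_eq_mul_inv, div_le_one (by linarith)]; exact hc
    rw [ln2_nar] at hz
    refine (lin_pol hT hT' hV h (by positivity) c2 ?_).trans c2
    have := ln2_nonneg (q := univ) (sym_ok (V := V) (m := m) hT' (fun _ _ _ _ => trivial)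
      (show (0 : ℝ) < 25 by norm_num)) z
    rw [← one_div, le_div_iff₀ (by linarith)]
    refine le_trans ?_ hz
    rw [mul_comm]
    exact mul_le_mul_of_nonneg_right (by nlinarith) this

theorem pol_pa (φ : T.ι → MvPolynomial T'.ι ℤ) (ρ : Equiv.Perm V) (x : SA T' V m → ℝ) :
    pol φ x ∘ pa ρ = pol φ (x ∘ pa ρ) := funext fun k => by
  classical
  have h1 : ∀ b, P057ST.sb (P057ST.sel ρ) ((fr SL.cd SL.fc 0).pt x b) =
      (fr SL.cd SL.fc 0).pt (x ∘ pa ρ) b := fun b => by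
    ext μ
    rw [coeff_sel ρ.injective, Cf.coeff_pt, Cf.coeff_pt]
    refine (Fintype.sum_bijective _ (P057RL.pa_bij ρ) _ _ fun i => ?_).symm
    exact if_congr (and_congr Iff.rfl (Multiset.map_injective ρ.injective).eq_iff.symm) rfl rfl
  rw [Function.comp, pol_eq, pol_eq, cq, cq, ← funext h1, ← comp_aeval_apply,
    coeff_sel ρ.injective]
  rfl

theorem ln2_xt {ι E : Type} [Fintype ι] [DecidableEq ι] [Fintype E] [DecidableEq E] (S : MS V ι)
    (X : Xt V ι E) (z : ι ⊕ E → ℝ) : ln2 (xt S X) univ z =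
    ln2 S univ (z ∘ Sum.inl) + qq X.G (z ∘ Sum.inr - X.g z) := by
  unfold ln2
  rw [show msk univ (z - (xt S X).p z) = _ from funext fun i => msk_pos _ (mem_univ i),
    show msk univ (z ∘ Sum.inl - S.p (z ∘ Sum.inl)) = _ from funext fun i => msk_pos _ (mem_univ i)]
  exact qq_blocks _ _ _

theorem hat_pol (hT' : T'.Ok s N) (hV : Fintype.card V ≤ s + 1)
    {P : (SA T' V m → ℝ) → SA T V m → ℝ} (hM : P057MA.Mor (nar (S0 T' V m) (c0 s)) (S0 T V m) P)
    (hp : ∀ ρ x, P x ∘ pa ρ = P (x ∘ pa ρ))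
    (hl : ∀ δ : ℝ, 0 < δ → c0 s * δ ≤ 1 → ∀ z, ln2 (S0 T' V m) univ z ≤ δ →
      ln2 (S0 T V m) univ (P z) ≤ c0 s * δ) {c : ℝ} (c2 : c0 s + 1 ≤ c) (c3 : (c0 s : ℝ) ^ (s + 1) ≤ c) {K : Type}
    [Fintype K] [DecidableEq K] {X : Xt V (SA T V m) K} {ψ : (SA T V m ⊕ K → ℝ) → ℝ} {B : ℝ}
    (hB : 1 ≤ B) (hG : X.G.PosDef) (hH : Hat X ψ B) :
    Hat (X.pull P) (fun x => ψ (sg P x)) (c * B) := by
  have c1 : (1 : ℝ) ≤ c0 s := (one_le_pow₀ one_le_two).trans (le_c0 s)
  obtain ⟨I, R, a1, a2, a3, a4, a5⟩ := hH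
  have t : ∀ F F' : Finset V, True → F' ⊆ F → True := fun _ _ _ _ => trivial
  have hS : (S0 T' V m).Ok := sym_ok hT' t (by norm_num)
  have hC : (S0 T' V m).Cen := sym_cen hT' t _
  have l1 : ∀ v ∈ univ, Lin ((S0 T' V m).st v) fun z => R (P z) := fun v hv =>
    hM.lin (a3.lin v hv)
  refine ⟨fun z => I (P z), fun z => R (P z), ⟨on_univ _, fun v hv => hM.lin (a1.lin v hv)⟩,
    hM.intV a2, ⟨on_univ _, l1⟩, (Nle.of_nar hS hC c1 (fun z hz => a4 _ (hM.ball z hz)) l1
      fun i _ => by rw [inter_univ]; exact hC.ne i).mono ?_, fun y hy => ?_⟩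
  · rw [mul_comm]
    exact mul_le_mul_of_nonneg_right ((pow_le_pow_right₀ c1 hV).trans c3) (by linarith)
  obtain ⟨w, hw⟩ := hM.exists_int (y ∘ Sum.inl)
  have e1 : toR (Sum.elim w (y ∘ Sum.inr)) = sg P (toR y) := by
    funext i
    cases i with
    | inl k => exact (congrFun hw k).symm
    | inr e => rfl
  have e2 : ∀ ρ, cpr id ρ (sg P (toR y)) = sg P (cpr id ρ (toR y)) := fun ρ => by
    funext i
    cases i with
    | inl k => exact congrFun (hp ρ (toR y ∘ Sum.inl)) k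
    | inr e => rfl
  have a6 := a5 (Sum.elim w (y ∘ Sum.inr))
  simp only [e1, e2] at a6
  refine a6 ?_
  rw [ln2_xt] at hy ⊢
  have e3 : (X.clo id).g (sg P (toR y)) = ((X.pull P).clo id).g (toR y) :=
    funext fun e => congrArg (X.g · e.2) (e2 e.1)
  have p0 := ln2_nonneg (q := univ) hS (toR y ∘ Sum.inl)
  have p1 := qq_nonneg (P057RL.pd_cG (R := Equiv.Perm V) hG).posSemidef
    (toR y ∘ Sum.inr - ((X.pull P).clo id).g (toR y))
  have c4 : 0 < c := by linarith
  have d0 : 0 < (c * B)⁻¹ := by positivity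
  have d1 : (c0 s + 1) * (c * B)⁻¹ ≤ B⁻¹ := by
    rw [mul_inv, ← mul_assoc]
    refine mul_le_of_le_one_left (by positivity) ?_
    rwa [← div_eq_mul_inv, div_le_one c4]
  have d2 : B⁻¹ ≤ 1 := inv_le_one_of_one_le₀ hB
  have d3 := hl _ d0 (by linarith) (toR y ∘ Sum.inl)
    ((le_add_of_nonneg_right p1).trans hy)
  rw [e3]
  refine (add_le_add d3 ((le_add_of_nonneg_left p0).trans hy)).trans ?_
  linarith

theorem morc (s : ℕ) : MORC s := by
  have c1 : (1 : ℝ) ≤ c0 s := (one_le_pow₀ one_le_two).trans (le_c0 s)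
  obtain ⟨c, c2⟩ := exists_nat_ge (max (c0 s + 1 : ℝ) (c0 s ^ (s + 1)))
  have c3 := (le_max_left _ _).trans c2
  exact ⟨c, by exact_mod_cast (show (1 : ℝ) ≤ c by linarith), fun N T T' V _ _ m φ hT hT' hV h =>
    ⟨mor_pol hT hT' hV h (by linarith), pol_pa φ, fun K _ _ X ψ B hB hG hH =>
      hat_pol hT' hV (mor_pol hT hT' hV h le_rfl) (pol_pa φ)
        (fun _ a b _ => lin_pol hT hT' hV h a b) c3 ((le_max_right _ _).trans c2) hB hG hH⟩⟩

end

end Vale.Agent.P057PU
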