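import Vale.Agent.P057PU.Br

/-!
Symbols pull back along the polarisation of the top part.
-/

set_option linter.all false

open Matrix Finset MvPolynomial
open Vale.Agent.P267.H775 Vale.Agent.P057G Vale.Agent.P057PC Vale.Agent.P057TP Vale.Agent.P057SY
open Vale.Agent.P057PL Vale.Agent.P057TE

namespace Vale.Agent.P057PU

noncomputable section

variable {C W : Type} [Fintype W] [DecidableEq W] {T T' : Tow} {cl : W → C} {m : ℕ}

theorem ex_eq {l : Lb T cl Unit m} (hl : l.Pure) :
    ex l.fc (T.lv l.cd) = Multiset.toFinsupp (fo l).val := by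
  ext o
  rw [Multiset.toFinsupp_apply, count_val]
  cases o with
  | none =>
    rw [ex_none]
    by_cases h : l.bs = none
    · rw [if_neg fun e => (none_fo l).1 e h, l.card_eq h, Nat.sub_self]
    · rw [if_pos ((none_fo l).2 h), ← hl.resolve_left h, Nat.add_sub_cancel_left]
  | some w => rw [ex_some]; exact if_congr (some_fo l w).symm rfl rfl

theorem card_fo (l : Lb T cl Unit m) : (fo l).card = l.fc.card + if l.bs = none then 0 else 1 := by
  unfold fo
  split_ifs
  · rw [card_image_of_injective _ (Option.some_injective _), add_zero]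
  · rw [card_insert_of_notMem (by simp), card_image_of_injective _ (Option.some_injective _)]

theorem pure_iff (l : Lb T cl Unit m) : l.Pure ↔ (fo l).card = T.lv l.cd := by
  rw [card_fo, Lb.Pure]
  by_cases h : l.bs = none
  · simp [h, l.card_eq h]
  · simp [h]

theorem lb_ext {l l' : Lb T cl Unit m} (h1 : l.cd = l'.cd) (h2 : fo l = fo l') : l = l' := by
  refine Lb.ext' h1 (Finset.ext fun w => by rw [← some_fo, h2, some_fo]) ?_
  have h3 : l.bs ≠ none ↔ l'.bs ≠ none := by rw [← none_fo, h2, none_fo]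
  rcases e : l.bs with _ | a <;> rcases e' : l'.bs with _ | b <;> simp [e, e'] at h3 ⊢

/-- the part of the family with vertex or base variables has no symbol -/
theorem alt_cf (P : MvPolynomial T'.ι (Lam ℝ W)) (o : Option Unit) (A : Finset (Option W))
    (x : Lb T' cl Unit m → ℝ) :
    (sk T' cl m).alt A (fun y => coeff (Multiset.toFinsupp A.val) (eval (lift y o) P)) x =
      coeff (Multiset.toFinsupp A.val) (eval (lift x o) (map MvPolynomial.C (map constantCoeff P))) := by
  have hμ : ∀ v, Multiset.toFinsupp A.val v = if v ∈ A then 1 else 0 := fun v => count_val A v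
  have ha : ∀ f g : (Lb T' cl Unit m → ℝ) → ℝ, (sk T' cl m).alt A (fun y => f y + g y) x =
      (sk T' cl m).alt A f x + (sk T' cl m).alt A g x := fun f g => by
    simp only [MS.alt, mul_add, sum_add_distrib]
  induction P using MvPolynomial.induction_on' with
  | add p q hp hq => simp only [map_add, coeff_add, ha, hp, hq]
  | monomial β c =>
    have e : ∀ (c : Lam ℝ W) Y, eval Y (monomial β c) = c * eval Y (monomial β 1) := fun c Y => by
      rw [eval_monomial, eval_monomial, one_mul]
    simp only [map_monomial, e c, e (MvPolynomial.C _)]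
    induction c using MvPolynomial.induction_on' with
    | add p q hp hq => simp only [map_add, add_mul, coeff_add, ha, hp, hq]
    | monomial ν r =>
      by_cases h : ν = 0
      · subst h
        rw [constantCoeff_monomial, if_pos rfl]
        refine alt_of_zero (fun v hv y => ?_) x
        refine P057PC.Sup.coeff (P := fun μ : Option W →₀ ℕ => μ v = 0)
          ((P057PC.Sup.single (P := fun μ : Option W →₀ ℕ => μ v = 0) rfl r).mul
            (P057PC.Sup.eval (P := fun μ : Option W →₀ ℕ => μ v = 0)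
              (Q := fun μ : Option W →₀ ℕ => μ v = 0) rfl
              (fun _ _ a b => by simp [a, b]) (fun _ _ a b => by simp [a, b]) (fun b => ?_)
              fun β' => ?_) fun _ _ a b => by simp [a, b]) (by simp [hμ, hv])
        · refine P057PC.Sup.sum _ fun k _ => ?_
          split_ifs with e
          · by_cases g : v ∈ fo k
            · rw [mix_pos _ _ ((MS.mem_st _).2 g), Pi.zero_apply, map_zero, zero_mul]
              exact P057PC.Sup.zero _
            · rw [mon_eq, C_mul_monomial, ← e.1]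
              refine P057PC.Sup.single ?_ _
              cases v with
              | none => rw [ex_none, k.card_eq (not_not.1 (mt (none_fo k).2 g)), Nat.sub_self]
              | some w => rw [ex_some, if_neg (mt (some_fo k w).2 g)]
          · exact P057PC.Sup.zero _
        · classical
          rw [coeff_monomial]
          split_ifs
          exacts [P057PC.Sup.single (P := fun μ : Option W →₀ ℕ => μ v = 0) rfl 1,
            P057PC.Sup.zero _]
      · obtain ⟨v, hv⟩ := Finsupp.support_nonempty_iff.2 h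
        have d : (X v : Lam ℝ W) ∣ monomial ν r := X_dvd_monomial.2 (Or.inr (by simpa using hv))
        rw [constantCoeff_monomial, if_neg h, map_zero, zero_mul, coeff_zero]
        by_cases g : v ∈ A
        · refine P057MA.alt_indep g (fun y y' => ?_) x
          rw [← sub_eq_zero, ← coeff_sub, ← mul_sub]
          refine coeff_of_dvd (o := v) (n := 2) (sq (X v : Lam ℝ W) ▸ mul_dvd_mul d
            (dvd_eval (lift_dvd (fun k => (em (v ∈ fo k)).symm.imp
              (fun g => mix_neg _ _ fun c => g ((MS.mem_st _).1 c)) (mon_dvd k)) _) _))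
            (by simp [hμ, g])
        · exact sum_eq_zero fun U _ => mul_eq_zero_of_right _ (coeff_of_dvd (o := v) (n := 1)
            (by rw [pow_one]; exact d.mul_right _) (by simp [hμ, g]))

variable {F : Finset W}

theorem mem_up {A : Finset (VF F)} {o : Option W} : o ∈ up A ↔ ∃ h, (⟨o, h⟩ : VF F) ∈ A := by
  simp [up]

theorem up_sub (A : Finset (VF F)) : up A ⊆ fp F := fun o ho => (mem_up.1 ho).1

theorem some_fp {w : W} : some w ∈ fp F ↔ w ∈ F := by simp [fp]

theorem exists_lb (hF : Set.InjOn cl F) (k : SA T (VF F) m) :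
    ∃ l : Lb T cl Unit m, l.cd = k.cd ∧ fo l = up k.fc := by
  have h1 : (up k.fc).card = T.lv k.cd := (card_map _).trans k.2.2.1
  have h2 : Set.InjOn cl (eraseNone (up k.fc) : Finset W) :=
    hF.mono fun w hw => some_fp.1 (up_sub _ (mem_eraseNone.1 hw))
  by_cases h : none ∈ up k.fc
  · refine ⟨⟨(k.cd, eraseNone (up k.fc), some ()), k.2.1, h2, ?_⟩, rfl, Finset.ext fun o => ?_⟩
    · have := card_eraseNone_of_mem h
      have := card_pos.2 ⟨_, h⟩
      show (eraseNone (up k.fc)).card < T.lv k.cd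
      omega
    · cases o with
      | none => exact (none_fo _).trans (iff_of_true (Option.some_ne_none _) h)
      | some w => exact (some_fo _ _).trans mem_eraseNone
  · refine ⟨⟨(k.cd, eraseNone (up k.fc), none), k.2.1, h2, (card_eraseNone_of_not_mem h).trans h1⟩,
      rfl, Finset.ext fun o => ?_⟩
    cases o with
    | none => exact (none_fo _).trans (iff_of_false (fun e => e rfl) h)
    | some w => exact (some_fo _ _).trans mem_eraseNone

theorem exists_sa {l : Lb T cl Unit m} (hl : l.Pure) (h : fo l ⊆ fp F) :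
    ∃ k : SA T (VF F) m, k.cd = l.cd ∧ up k.fc = fo l := by
  have e : up ((fo l).subtype (· ∈ fp F)) = fo l := subtype_map_of_mem h
  exact ⟨⟨(l.cd, (fo l).subtype _), l.2.1, ((card_map _).symm.trans (congrArg card e)).trans
    ((pure_iff l).1 hl), trivial⟩, rfl, e⟩

theorem pu_eq (x : SA T (VF F) m → ℝ) {k : SA T (VF F) m} {l : Lb T cl Unit m} (h1 : k.cd = l.cd)
    (h2 : up k.fc = fo l) : pu cl F x l = x k := by
  rw [pu, sum_eq_single_of_mem k (mem_univ _) fun k' _ hk => if_neg fun e => hk ?_, if_pos ⟨h1, h2⟩]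
  exact Subtype.ext (Prod.ext (e.1.trans h1.symm) (map_injective _ (e.2.trans h2.symm)))

theorem pu_out (x : SA T (VF F) m → ℝ) {l : Lb T cl Unit m} (h : ¬ fo l ⊆ fp F) :
    pu cl F x l = 0 := sum_eq_zero fun k _ => if_neg fun e : k.cd = l.cd ∧ up k.fc = fo l =>
  h (e.2 ▸ up_sub _)

theorem lift_pu (hF : Set.InjOn cl F) (x : SA T (VF F) m → ℝ) (b : T.ι) :
    lift (pu cl F x) (some ()) b = tr Subtype.val ((fr SL.cd SL.fc 0).pt x b) := by
  classical
  have e : ∀ l : Lb T cl Unit m, l.bs = none ∨ l.bs = some () := fun l => by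
    rcases l.bs with _ | a <;> simp
  rw [tr_pt, lift]
  simp only [e, and_true, pu, map_sum, sum_mul, ite_sum_zero]
  rw [sum_comm]
  refine sum_congr rfl fun k _ => ?_
  obtain ⟨l, h1, h2⟩ := exists_lb hF k
  rw [sum_eq_single_of_mem l (mem_univ _) fun l' _ hl => ?_,
    if_pos (c := k.cd = l.cd ∧ _) ⟨h1.symm, h2.symm⟩]
  · by_cases g : k.cd = b
    · rw [if_pos g, if_pos (h1.trans g), mon_eq, C_mul_monomial, mul_one, ← g, ← h1,
        ex_eq ((pure_iff l).2 (by rw [h2, h1]; exact (card_map _).trans k.2.2.1)), h2]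
      rfl
    · rw [if_neg g, if_neg fun c => g (h1.symm.trans c)]
  · rw [if_neg (c := k.cd = l'.cd ∧ _) fun g => hl (lb_ext (g.1.symm.trans h1.symm)
      (g.2.symm.trans h2.symm)), map_zero, zero_mul, ite_self]

/-- the symbol of the map of pure labels -/
theorem alt_pm {Ψ : Fam ℤ T.ι T'.ι W Unit} (h : Ψ.Ok T.lv T'.lv) (hF : Set.InjOn cl F)
    (x : SA T' (VF F) m → ℝ) {l : Lb T cl Unit m} (hl : l.Pure) (hs : fo l ⊆ fp F) :
    (sk T' cl m).alt (fo l) (fun y => pm (Ψ.cast ℝ) y l) (pu cl F x) =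
      pu cl F (pol Ψ.top x) l := by
  obtain ⟨k, h1, h2⟩ := exists_sa hl hs
  have h3 : (sk T' cl m).alt (fo l) (fun y => cf (Ψ.cast ℝ) y l) (pu cl F x) =
      pu cl F (pol Ψ.top x) l := by
    simp only [cf, ex_eq hl]
    rw [alt_cf, h.cast.top_eq, Fam.top_cast, pu_eq _ h1 h2, pol_eq,
      ← cq_tr (j := Subtype.val) Subtype.val_injective, h1, ← funext (lift_pu hF x),
      show Multiset.map Subtype.val k.fc.val = (fo l).val from congrArg Finset.val h2,
      ← sub_eq_zero, ← coeff_sub]
    cases e : l.bs with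
    | some a => rw [sub_self, coeff_zero]
    | none =>
      refine coeff_of_dvd (o := none) (n := 1) (dvd_eval (fun b => ?_) _) (by
        simp [count_val, none_fo, e])
      rw [pow_one, lift, lift, ← sum_sub_distrib]
      refine dvd_sum fun j _ => ?_
      cases g : j.bs with
      | none => simp
      | some a =>
        rw [if_neg (by simp), zero_sub, dvd_neg]
        by_cases c : j.cd = b
        · rw [if_pos ⟨c, Or.inr rfl⟩]
          exact (c ▸ mon_dvd j ((none_fo j).2 (by simp [g]))).mul_left _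
        · rw [if_neg fun d => c d.1]
          exact dvd_zero _
  simp only [pm_cf h.cast, if_pos hl]
  split_ifs with e
  · exact h3
  · have h4 := P057MA.alt_indep (S := sk T' cl m) ((none_fo l).2 e)
      (f := fun y => cf (Ψ.cast ℝ) (k0 y) l) (fun y y' => by
        rw [show k0 (mix ((sk T' cl m).st none) y y') = k0 y' from funext fun j => ?_]
        unfold k0
        split_ifs with c
        exacts [mix_neg _ _ fun g => (none_fo j).1 ((MS.mem_st _).1 g) c, rfl]) (pu cl F x)
    rw [← h3, ← sub_zero (MS.alt _ _ (fun y => cf _ y l) _), ← h4]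
    simp only [MS.alt, mul_sub, sum_sub_distrib]

variable {E : Type} [Fintype E] [DecidableEq E] {X : Xt (Option W) (Lb T cl Unit m) E}

/-- the symbol of the map with extra coordinates -/
theorem alt_pe {Ψ : Fam ℤ T.ι T'.ι W Unit} (h : Ψ.Ok T.lv T'.lv) (hF : Set.InjOn cl F)
    (x : SA T' (VF F) m ⊕ EF X.fc F → ℝ) (i : Lb T cl Unit m ⊕ E)
    (hi : Sum.elim Lb.Pure (fun _ => True) i) (hs : (xt (sk T cl m) X).fc i ⊆ fp F) :
    (xt (sk T' cl m) (px (Ψ.cast ℝ) X)).alt ((xt (sk T cl m) X).fc i)
      (fun y => P057PL.pe (Ψ.cast ℝ) y i) (P057SY.pe cl X.fc F x) =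
      P057SY.pe cl X.fc F (sg (pol Ψ.top) x) i := by
  cases i with
  | inl l =>
    refine Eq.trans (sum_congr rfl fun U _ => ?_) (alt_pm h hF (x ∘ Sum.inl) hi hs)
    refine congrArg (_ * pm (Ψ.cast ℝ) · l) (funext fun j => ?_)
    exact if_congr (MS.mem_sts.trans (MS.mem_sts (S := sk T' cl m) (i := j)).symm) rfl rfl
  | inr e =>
    refine alt_of_zero (fun v hv y => ?_) _
    have : Sum.inr e ∈ (xt (sk T' cl m) (px (Ψ.cast ℝ) X)).st v := (MS.mem_st _).2 hv
    exact mix_pos _ _ this

theorem dg_pe' {Ψ : Fam ℝ T.ι T'.ι W Unit} (h : Ψ.Ok T.lv T'.lv) {b : ℕ}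
    {φ : (Lb T cl Unit m ⊕ E → ℝ) → ℝ} (hφ : Dg X b φ) :
    Dg (px Ψ X) b fun x => φ (P057PL.pe Ψ x) := by
  refine ⟨fun x x' h1 h2 => hφ.on _ _ (fun l _ => congrFun (pm_pure h h1) l) h2,
    fun v => (la_pe h X).aff_comp (hφ.aff v), ((la_pe h X).aff_comp (hφ.aff none)).lin fun y => ?_,
    fun F hF => (la_pe h X).alt_comp (hφ.deg F hF)⟩
  rw [← hφ.lin.zero (P057PL.pe Ψ (mix ((xt (sk T' cl m) (px Ψ X)).st none) 0 y))]
  congr 1
  funext i
  by_cases k : i ∈ (xt (sk T cl m) X).st none
  · rw [mix_pos _ _ k]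
    cases i with
    | inl l =>
      refine pm_zero Ψ (fun j hj => ?_) ((none_fo l).1 ((MS.mem_st _).1 k))
      have : Sum.inl j ∈ (xt (sk T' cl m) (px Ψ X)).st none := (MS.mem_st _).2 ((none_fo j).2 hj)
      exact mix_pos _ _ this
    | inr e =>
      have : Sum.inr e ∈ (xt (sk T' cl m) (px Ψ X)).st none :=
        (MS.mem_st _).2 ((MS.mem_st (xt (sk T cl m) X)).1 k)
      exact mix_pos _ _ this
  · rw [mix_neg _ _ k]

theorem lm_pm {Ψ : Fam ℤ T.ι T'.ι W Unit} (h : Ψ.Ok T.lv T'.lv) :
    Lm cl m Ψ.top (pm (Ψ.cast ℝ)) := by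
  refine ⟨fun E _ _ X hX h0 => ⟨ok_px h.cast hX, fun F hF => ?_⟩,
    fun E _ _ X b f hf => ⟨dg_pe' h.cast hf, fun F hF hb x => ?_⟩⟩
  · have : ((X.pull (pm (Ψ.cast ℝ))).sy F).g = ((X.sy F).pull (pol Ψ.top)).g := by
      funext x e
      refine (alt_la (la_pe h.cast X) _ (fun v _ => hX.aff v e) _).trans (alt_congr
        (p := fun i => (xt (sk T cl m) X).fc i ⊆ X.fc e) (fun y y' k => hX.loc e _ _
          (fun i hi => k (Sum.inl i) hi) fun e' he _ => k (Sum.inr e') he) _ fun i hi => ?_)
      rw [inter_eq_left.2 hi]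
      refine alt_pe h hF x i ?_ (hi.trans (e.2.trans (subset_insert _ _)))
      cases i with
      | inl l => exact Or.inl (not_not.1 fun c => h0 e (hi ((none_fo l).2 c)))
      | inr e => trivial
    exact congrArg (Xt.mk _ _ _) this
  · refine (alt_la (la_pe h.cast X) _ (fun v _ => hf.aff v) _).trans
      ((alt_kill (univ \ fp F) (fun v hv => ⟨(Finset.mem_sdiff.1 hv).2, fun z => ?_⟩) _).trans
        (alt_congr (p := Sum.elim Lb.Pure fun _ => True) (fun y y' k => hf.on y y'
          (fun l => k (Sum.inl l)) fun e => k (Sum.inr e) trivial) _ fun i hi => ?_))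
    · have h1 := (Finset.mem_sdiff.1 hv).2
      cases v with
      | none => exact absurd (mem_insert_self _ _) h1
      | some w =>
        have h2 := hf.deg (insert w F) (Or.inl (by
          rwa [card_insert_of_notMem (mt some_fp.2 h1)]))
        rw [fp, insert_comm, ← image_insert, MS.alt_insert (by simp), h2, h2, sub_zero]
    · by_cases c : (xt (sk T cl m) X).fc i ⊆ fp F
      · rw [MS.kz, mix_neg _ _ fun g => ?_, inter_eq_left.2 c]
        · exact alt_pe h hF x i hi c
        · obtain ⟨v, h1, h2⟩ := MS.mem_sts.1 g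
          exact (Finset.mem_sdiff.1 h1).2 (c h2)
      · obtain ⟨v, h1, h2⟩ := not_subset.1 c
        rw [MS.kz, mix_pos _ _ (MS.mem_sts.2 ⟨v, Finset.mem_sdiff.2 ⟨mem_univ _, h2⟩, h1⟩)]
        cases i with
        | inl l => exact (pu_out _ c).symm
        | inr e =>
          rw [P057SY.pe, Sum.elim_inr, dif_neg fun g : X.fc e ⊆ F.image some =>
            c (Subset.trans g (subset_insert _ _))]
          rfl

theorem pull : PULL := fun s N T T' C W _ _ cl m Z Z' Ψ R r _ _ hS => by
  refine ⟨_, lm_pm hS.ok, fun E J _ _ _ _ D b τ Y h => ⟨fun z => D.γ (Ψ.sub cl m z) -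
    D.Φ (jn (Ψ.sub cl m (k0 z)) (D.n (Ψ.sub cl m z))), ⟨ok_px hS.ok.cast h.ok,
      ⟨h.sz.tr, h.sz.card, h.sz.sep, h.sz.cx⟩, h.tf, h.cj, fun j => dg_pe' hS.ok.cast (h.dg j),
      h.pd, h.gk, wo_sub h.wu Ψ, wo_sub h.wn Ψ, fun z z' k => ?_, fun z => h.u01 _,
      fun z hz => ?_⟩, fun f θ z => ?_⟩⟩
  · have : k0 z = k0 z' := funext fun l => by unfold k0; split_ifs with e; exacts [k l e, rfl]
    simp only [this, wo_sub h.wn Ψ z z' k, wo_sub h.wg Ψ z z' k]
  · have := h.ps _ hz
    rw [Ps, ← g_pe h.ok h.tf] at this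
    exact this
  · have e : D.Φ (P057PL.pe (Ψ.cast ℝ) (jn z (D.n (Ψ.sub cl m z)))) - (D.γ (Ψ.sub cl m z) -
        D.Φ (jn (Ψ.sub cl m (k0 z)) (D.n (Ψ.sub cl m z)))) =
        D.Φ (jn (Ψ.sub cl m z) (D.n (Ψ.sub cl m z))) - D.γ (Ψ.sub cl m z) := funext fun j => by
      simp only [Pi.sub_apply, dg_split h.tf (h.dg j) Ψ z]; ring
    rw [KD.H, KD.H, ← e, ex0_sub hS]
    rfl

end

end Vale.Agent.P057PU
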